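import Vale.Agent.P365W82.Main

/-!
# P365, Q2: localization for the Anderson operator as a bounded operator on `ℓ²(ℤ²)`
-/

open MeasureTheory ProbabilityTheory P365L Vale.Agent.P365W

/-- Independent uniform variables exist. For every such family and every `lam > 0`, almost surely
the Anderson operator exists as a bounded operator on `ℓ²(ℤ²)` and is unique; it is self-adjoint
with spectrum `[-4 - lam, 4 + lam]`, has simple pure point spectrum, and its eigenvectors decay
exponentially. -/
theorem Vale.Agent.Results.P365.AOperator.result :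
    (∃ (Ω : Type) (_ : MeasurableSpace Ω) (P : Measure Ω) (w : Site → Ω → ℝ),
      iIndepFun w P ∧ ∀ x, pdf.IsUniform (w x) (Set.Icc (-1) 1) P volume) ∧
    ∀ lam : ℝ, 0 < lam → ∀ (Ω : Type*) [MeasurableSpace Ω] (P : Measure Ω) (w : Site → Ω → ℝ),
      iIndepFun w P → (∀ x, pdf.IsUniform (w x) (Set.Icc (-1) 1) P volume) →
      ∀ᵐ o ∂P, (∃! H, IsAnderson lam (fun x => w x o) H) ∧
        ∀ H, IsAnderson lam (fun x => w x o) H →
          SimplePurePoint H (Set.Icc (-4 - lam) (4 + lam)) ∧
          ∀ z u, IsEigenvector H z u → ExpDecay u :=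
  ⟨exists_model, fun _ hl _ _ P w hi hu => main hl P w hi hu⟩
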